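import Mathlib.Data.Finset.Card
import Mathlib.Data.Fintype.Basic
import Mathlib.Data.Fin.Basic
import Mathlib.Order.ConditionallyCompleteLattice.Basic
import Mathlib.Order.Lattice.Nat
import Mathlib.Data.Set.Pairwise.Basic

namespace Vale.Agent.P045

/-- A finite `r`-partite `r`-uniform hypergraph on a vertex type `V`: the vertices are
partitioned into `r` parts by the map `part`, and every edge (a finite set of vertices)
contains exactly one vertex of each part. -/
structure PartiteHypergraph (r : ℕ) (V : Type*) where
  /-- the part of a vertex -/
  part : V → Fin r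
  /-- the (finite) set of edges -/
  edges : Finset (Finset V)
  /-- every edge has exactly one vertex in every part -/
  exact : ∀ e ∈ edges, ∀ i : Fin r, ∃! v, v ∈ e ∧ part v = i

variable {r : ℕ} {V : Type*}

/-- `C` is a vertex cover: it meets every edge. -/
def PartiteHypergraph.IsCover (H : PartiteHypergraph r V) (C : Finset V) : Prop :=
  ∀ e ∈ H.edges, ∃ v ∈ e, v ∈ C

/-- `M` is a matching: a set of pairwise disjoint edges. -/
def PartiteHypergraph.IsMatching (H : PartiteHypergraph r V) (M : Finset (Finset V)) : Prop :=
  M ⊆ H.edges ∧ (M : Set (Finset V)).Pairwise Disjoint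

/-- The covering number: the least size of a vertex cover. -/
noncomputable def PartiteHypergraph.coveringNumber (H : PartiteHypergraph r V) : ℕ :=
  sInf {k | ∃ C : Finset V, H.IsCover C ∧ C.card = k}

/-- The matching number: the largest size of a matching. -/
noncomputable def PartiteHypergraph.matchingNumber (H : PartiteHypergraph r V) : ℕ :=
  sSup {k | ∃ M : Finset (Finset V), H.IsMatching M ∧ M.card = k}

/-- Intersecting: at least one edge, and every two edges share a vertex. -/
def PartiteHypergraph.IsIntersecting (H : PartiteHypergraph r V) : Prop :=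
  H.edges.Nonempty ∧ ∀ e ∈ H.edges, ∀ f ∈ H.edges, ∃ v, v ∈ e ∧ v ∈ f

end Vale.Agent.P045
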